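import Vale.Agent.P129B.Real
import Vale.Agent.P129BZ.Scal

/-!
# Geometric Cauchy sequences of the model converge; successive corrections
-/

namespace Vale.Agent.P129B

universe v

variable {N : Type v} [ZM N]
variable {R : Type*} [Field R] [LinearOrder R] [IsStrictOrderedRing R] [Coded N R] [RF N R]

section Geo

variable {E : Type*} [AddCommGroup E] [Nm E R] [NG R E] [Coded N E] [DefSub N E] [DefNm N R E]

theorem geo_dist (x : NN N → E) [Intl N x] (C : R)
    (h : ∀ j, nm (x j - x (j + 1)) ≤ C * hp R j) {j l : NN N} (hjl : j ≤ l) :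
    nm (x j - x l) ≤ 2 * C * hp R j - 2 * C * hp R l := by
  refine NN.le_ind (P := fun l => nm (x j - x l) ≤ 2 * C * hp R j - 2 * C * hp R l)
    (by fun_prop) ?_ (fun l _ ih => ?_) hjl
  · rw [sub_self, sub_self, nm_zero]
  · have h1 := nm_triangle (x j) (x l) (x (l + 1))
    have h2 := h l
    rw [hp_succ]
    linarith

/-- **Geometric Cauchy sequences converge.** -/
theorem geo [Cpl N R E] (x : NN N → E) [hx : Intl N x] (C : R)
    (h : ∀ j, nm (x j - x (j + 1)) ≤ C * hp R j) :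
    ∃ w, ∀ j, nm (x j - w) ≤ 2 * C * hp R j := by
  have hC : 0 ≤ 2 * C := by
    have h1 := (nm_nonneg _).trans (h 0)
    rw [hp_zero] at h1
    linarith
  have key : ∀ j l, j ≤ l → nm (x j - x l) ≤ 2 * C * hp R j := fun j l hjl => by
    have h1 := geo_dist x C h hjl
    have h2 := mul_nonneg hC (hp_pos (R := R) l).le
    linarith
  obtain ⟨w, hw⟩ := Cpl.lim (R := R) x hx fun ε hε => by
    obtain ⟨n, hn⟩ := exists_mul_hp_lt N (2 * C) hε
    refine ⟨n, fun k l hk hl => ?_⟩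
    rcases le_total k l with h1 | h1
    · exact (key k l h1).trans_lt (hn k hk)
    · rw [nm_sub_rev]
      exact (key l k h1).trans_lt (hn l hl)
  refine ⟨w, fun j => le_of_forall_pos_le_add fun ε hε => ?_⟩
  obtain ⟨n, hn⟩ := hw ε hε
  have h1 := nm_triangle (x j) (x (max j n)) w
  have h2 := key j _ (le_max_left j n)
  have h3 := hn _ (le_max_right j n)
  linarith

end Geo

variable {K : Type*} [AddCommGroup K] [Nm K R] [NG R K] [Coded N K] [Tot N K] [DefSub N K]
  [DefNm N R K]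
variable {E : Type*} [AddCommGroup E] [Nm E R] [NG R E] [Coded N E] [Tot N E] [DefSub N E]
  [DefNm N R E]

omit [Coded N K] [Tot N K] [DefSub N K] [DefNm N R K] [NG R E] [Coded N E] [Tot N E] [DefSub N E]
  [DefNm N R E] in
/-- The step of the successive corrections. -/
theorem corr_step (φ : NN N → E → K) (hsub : ∀ k x y, φ k (x - y) = φ k x - φ k y)
    (T : NN N → E → R → Prop) (C : R)
    (h1 : ∀ x ε, 0 < ε → ∃ n, T n x ε)
    (h2 : ∀ n n' x r, T n x r → n ≤ n' → T n' x r)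
    (h3 : ∀ n m x t η, 0 < t → 0 < η → T n x t → ∃ z, nm z ≤ C * t ∧
      (∀ k, k < m → nm (φ k z - if n ≤ k then φ k x else 0) ≤ η) ∧
        ∀ s, η ≤ s → n ≤ m → T m x s → T m (x - z) (2 * s))
    {ε : R} (hε : 0 < ε) (j n : NN N) {x : E} (hT : T n x (ε * hp R j)) :
    ∃ y m, T m y (ε * hp R (j + 1)) ∧ n < m ∧ nm (x - y) ≤ C * ε * hp R j ∧
      ∀ k, k < m → rc R k * nm (φ k y - if k < n then φ k x else 0) ≤ hp R j := by
  have hp0 := hp_pos (R := R) j
  have hp1 := hp_pos (R := R) (j + 1)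
  have hs0 : 0 < ε * hp R (j + 1) / 2 := by positivity
  obtain ⟨m₀, hm₀⟩ := h1 x _ hs0
  have hm1 := rc_succ_pos (R := R) (max m₀ (n + 1))
  obtain ⟨z, k1, k2, k3⟩ := h3 n (max m₀ (n + 1)) x _
    (min (ε * hp R (j + 1) / 2) (hp R j / (rc R (max m₀ (n + 1)) + 1))) (by positivity)
    (by positivity) hT
  have hnm : n < max m₀ (n + 1) := (NN.lt_add_one n).trans_le (le_max_right _ _)
  refine ⟨x - z, max m₀ (n + 1), ?_, hnm, ?_, fun k hk => ?_⟩
  · have := k3 _ (min_le_left _ _) hnm.le (h2 _ _ _ _ hm₀ (le_max_left _ _))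
    rwa [show 2 * (ε * hp R (j + 1) / 2) = ε * hp R (j + 1) by ring] at this
  · rw [sub_sub_cancel, mul_assoc]; exact k1
  · have e : (φ k (x - z) - if k < n then φ k x else 0) =
        -(φ k z - if n ≤ k then φ k x else 0) := by
      rw [hsub]
      by_cases h : k < n
      · rw [if_pos h, if_neg (not_le.2 h)]; abel
      · rw [if_neg h, if_pos (not_lt.1 h)]; abel
    rw [e, nm_neg]
    have h4 := (k2 k hk).trans (min_le_right _ _)
    have h5 : rc R k ≤ rc R (max m₀ (n + 1)) + 1 := by linarith [(rc_lt (R := R)).2 hk]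
    refine (mul_le_mul h5 h4 (nm_nonneg _) hm1.le).trans_eq ?_
    field_simp

omit [Tot N E] [Tot N K] [DefSub N K] in
/-- The limit of the successive corrections. -/
theorem corr_limit [Cpl N R E] (φ : NN N → E → K) (hφ : DefF N (fun p : NN N × E => φ p.1 p.2))
    (hsub : ∀ k x y, φ k (x - y) = φ k x - φ k y)
    (hbd : ∀ k, ∃ b : R, ∀ x, nm (φ k x) ≤ b * nm x) (x : NN N → E) [Intl N x]
    (n : NN N → NN N) [Intl N n] (C : R) (hn : ∀ j, n j < n (j + 1))
    (h1 : ∀ j, nm (x j - x (j + 1)) ≤ C * hp R j)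
    (h2 : ∀ j k, k < n (j + 1) →
      rc R k * nm (φ k (x (j + 1)) - if k < n j then φ k (x j) else 0) ≤ hp R j) :
    ∃ w, Intl N w → nm (x 0 - w) ≤ 2 * C ∧ ∃ c : R, ∀ k, rc R k * nm (φ k w) ≤ c := by
  obtain ⟨w, hw⟩ := geo x C h1
  refine ⟨w, fun _ => ⟨by simpa using hw 0, ?_⟩⟩
  obtain ⟨i, hi⟩ := exists_ibound (N := N) (f := fun k => rc R k * nm (φ k w)) (by fun_prop) (n 0)
  refine ⟨max 2 (rc R i * nm (φ i w)), fun k => ?_⟩
  rcases lt_or_ge k (n 0) with hk | hk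
  · exact (hi k hk).trans (le_max_right _ _)
  refine le_trans ?_ (le_max_left _ _)
  have hk0 := rc_nonneg (R := R) k
  have key : ∀ l, k < n l → rc R k * nm (φ k (x l)) ≤ 2 - 2 * hp R l := by
    refine NN.ind (P := fun l => k < n l → rc R k * nm (φ k (x l)) ≤ 2 - 2 * hp R l)
      (by fun_prop) (fun h => absurd h (not_lt.2 hk)) fun l ih hl => ?_
    have h3 := h2 l k hl
    have hp1 := hp_le_one (R := R) l
    rw [hp_succ]
    by_cases hkl : k < n l
    · rw [if_pos hkl] at h3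
      have h4 := ih hkl
      have h6 := mul_le_mul_of_nonneg_left (nm_le_add_sub (φ k (x (l + 1))) (φ k (x l))) hk0
      linarith
    · rw [if_neg hkl, sub_zero] at h3
      linarith
  have hle : ∀ l, l ≤ n l := NN.ind (P := fun l => l ≤ n l) (by fun_prop) (NN.zero_le' _)
    fun l ih => NN.add_one_le_iff.2 (ih.trans_lt (hn l))
  obtain ⟨b, hb⟩ := hbd k
  refine le_of_forall_pos_le_add fun ε hε => ?_
  obtain ⟨l, hl⟩ := exists_mul_hp_lt N (rc R k * |b| * (2 * C)) hε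
  have h3 := key (max l (k + 1)) ((NN.lt_add_one k).trans_le ((le_max_right _ _).trans (hle _)))
  have h4 := hl _ (le_max_left l (k + 1))
  have h5 := nm_le_add_sub (φ k w) (φ k (x (max l (k + 1))))
  rw [← hsub] at h5
  have h6 := (hb (w - x (max l (k + 1)))).trans
    (mul_le_mul_of_nonneg_right (le_abs_self b) (nm_nonneg _))
  rw [nm_sub_rev w] at h6
  have h7 := h6.trans (mul_le_mul_of_nonneg_left (hw _) (abs_nonneg b))
  have h8 := mul_le_mul_of_nonneg_left (h5.trans (add_le_add le_rfl h7)) hk0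
  have h9 := hp_pos (R := R) (max l (k + 1))
  nlinarith

/-- **Successive corrections.** -/
theorem corr_core [Cpl N R E] (φ : NN N → E → K) (hφ : DefF N (fun p : NN N × E => φ p.1 p.2))
    (hsub : ∀ k x y, φ k (x - y) = φ k x - φ k y)
    (hbd : ∀ k, ∃ b : R, ∀ x, nm (φ k x) ≤ b * nm x)
    (T : NN N → E → R → Prop) (hT : DefF N (fun p : NN N × E × R => T p.1 p.2.1 p.2.2)) (C : R)
    (h1 : ∀ x ε, 0 < ε → ∃ n, T n x ε)
    (h2 : ∀ n n' x r, T n x r → n ≤ n' → T n' x r)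
    (h3 : ∀ n m x t η, 0 < t → 0 < η → T n x t → ∃ z, nm z ≤ C * t ∧
      (∀ k, k < m → nm (φ k z - if n ≤ k then φ k x else 0) ≤ η) ∧
        ∀ s, η ≤ s → n ≤ m → T m x s → T m (x - z) (2 * s))
    (x : E) {ε : R} (hε : 0 < ε) :
    ∃ y, (∃ c : R, ∀ k, rc R k * nm (φ k y) ≤ c) ∧ nm (x - y) < ε := by
  have he0 : 0 < ε / (4 * (|C| + 1)) := by positivity
  obtain ⟨e, he⟩ : ∃ e, e = ε / (4 * (|C| + 1)) := ⟨_, rfl⟩
  rw [← he] at he0
  obtain ⟨n₀, hn₀⟩ := h1 x e he0
  have hI : DefF N (fun p : NN N × E × NN N => T p.2.2 p.2.1 (e * hp R p.1)) :=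
    DefF.comp (f := fun p : NN N × E × R => T p.1 p.2.1 p.2.2)
      (g := fun p : NN N × E × NN N => (p.2.2, p.2.1, e * hp R p.1)) hT (by fun_prop)
  obtain ⟨s, hs, hs0, H⟩ := exists_intl_seq (N := N) (β := E × NN N)
    (Inv := fun j s => T s.2 s.1 (e * hp R j))
    (R := fun j s t => s.2 < t.2 ∧ nm (s.1 - t.1) ≤ C * e * hp R j ∧ ∀ k, k < t.2 →
      rc R k * nm (φ k t.1 - if k < s.2 then φ k s.1 else 0) ≤ hp R j) hI (by fun_prop)
    (x, n₀) (by simpa using hn₀) fun j s _ h => by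
      obtain ⟨y, m, k1, k2⟩ := corr_step φ hsub T C h1 h2 h3 he0 j s.2 h
      exact ⟨(y, m), inferInstance, k1, k2⟩
  have i1 : Intl N (fun j => (s j).1) := DefF.toIntl (by fun_prop)
  have i2 : Intl N (fun j => (s j).2) := DefF.toIntl (by fun_prop)
  obtain ⟨w, hw⟩ := corr_limit φ hφ hsub hbd (fun j => (s j).1) (fun j => (s j).2) (C * e)
    (fun j => (H j).2.1) (fun j => (H j).2.2.1) (fun j => (H j).2.2.2)
  obtain ⟨hw1, hw2⟩ := hw inferInstance
  refine ⟨w, hw2, ?_⟩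
  simp only [hs0] at hw1
  have h4 : e * (4 * (|C| + 1)) = ε := by rw [he]; field_simp
  nlinarith [le_abs_self C, abs_nonneg C]

end Vale.Agent.P129B
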