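import Vale.Agent.P129BB.Geo
import Vale.Agent.P129BZ.Dual

/-!
# Successive corrections for a sequence of functionals
-/

namespace Vale.Agent.P129B

universe v

variable {N : Type v} [ZM N]
  {R : Type*} [Field R] [LinearOrder R] [IsStrictOrderedRing R] [Coded N R] [RF N R]
  {K : Type*} [Field K] [Algebra R K] [Nm K R] [KA R K] [Coded N K] [KF N R K]
  {E : Type*} [AddCommGroup E] [Module K E] [Nm E R] [NA R K E] [Coded N E] [NS N R K E]

/-- **Successive corrections**: the vectors on which the `k • φ k` are bounded are dense. -/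
theorem corr_dual [Cpl N R E] (φ : NN N → Dual N K E) [Intl N φ]
    (T : NN N → E → R → Prop) (hT : DefF N (fun p : NN N × E × R => T p.1 p.2.1 p.2.2)) (C : R)
    (h1 : ∀ x ε, 0 < ε → ∃ n, T n x ε)
    (h2 : ∀ n n' x r, T n x r → n ≤ n' → T n' x r)
    (h3 : ∀ n m x t η, 0 < t → 0 < η → T n x t → ∃ z, nm z ≤ C * t ∧
      (∀ k, k < m → nm (φ k z - if n ≤ k then φ k x else 0) ≤ η) ∧
        ∀ s, η ≤ s → n ≤ m → T m x s → T m (x - z) (2 * s))
    (x : E) (ε : R) (hε : 0 < ε) :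
    ∃ y, (∃ c : R, ∀ k, nm ((algebraMap R K (rc R k) • φ k) y) ≤ c) ∧ nm (x - y) < ε := by
  obtain ⟨y, ⟨c, hc⟩, hy⟩ := corr_core (fun k x => φ k x) (by fun_prop)
    (fun k x y => map_sub (φ k) x y) (fun k => (φ k).bdd) T hT C h1 h2 h3 x hε
  refine ⟨y, ⟨c, fun k => ?_⟩, hy⟩
  rw [Dual.smul_apply, KA.nm_mul, KA.nm_ofR_of_nonneg (rc_nonneg k)]
  exact hc k

end Vale.Agent.P129B
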